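import Mathlib

/-!
# Row 252, T2 = BOX 7 (slope-volume bound), file 1: ANALYTIC KIT            (architect helper206)            CONTRACT
Written proof: `git show origin/helper206:notes/R252/slope_206.md`.   PAPER-FREE, Mathlib only.
* `slv_quad_coarea`   : `∫ |h'| 1[|h| ≤ e] ≤ 4 e` for a polynomial `h` of degree `≤ 2` in one variable;
* `slv_quad_sublevel` : `|{|h| ≤ e, |h'| ≥ g}| ≤ 4 e / g`;
* `slv_det_prod_snd`  : `det ((x, y) ↦ (L (x, y), y)) = L (1, 0)`;
* `slv_graph_image`   : area formula for `p ↦ (f p, p.2)` on `ℝ × ℝ × ℝ` (outer measure of the image, no injectivity);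
* `slv_coarea_box`    : THE ENGINE: if `|∂_x f| ≤ cJ |∂_ν ψ|` on `S ⊆ {|x| ≤ K, |μ| ≤ L, |ψ| ≤ e}` and `ψ` is quadratic in `ν`, then the image `{(f, ν, μ)}` has volume `≤ cJ (2K)(2L)(4e)`.
Every `sorry` is a leaf `L-252-SLV-*`.  Statements are frozen; auxiliary lemmas directly above your theorem, prefix `slv_`; edit only your block.
-/

set_option autoImplicit false
open MeasureTheory Set

namespace Claimed.Agent.R252

/-- one monotone branch: on a measurable set where `h` is injective and `|h| ≤ e`, the integral of `|h'|` is at most `2e` -/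
theorem slv_quad_branch (a b c e : ℝ) (s : Set ℝ) (hs : MeasurableSet s) (hinj : InjOn (fun ν : ℝ => a * ν ^ 2 + b * ν + c) s)
    (hse : ∀ ν ∈ s, |a * ν ^ 2 + b * ν + c| ≤ e) : ∫⁻ ν in s, ENNReal.ofReal |2 * a * ν + b| ≤ ENNReal.ofReal (2 * e) := by
  have hd : ∀ ν ∈ s, HasDerivWithinAt (fun ν : ℝ => a * ν ^ 2 + b * ν + c) (2 * a * ν + b) s ν := by
    intro ν _
    have h1 : HasDerivAt (fun ν : ℝ => a * ν ^ 2 + b * ν + c) (a * (2 * ν) + b * 1) ν := by
      have h2 : HasDerivAt (fun ν : ℝ => ν ^ 2) (2 * ν) ν := by simpa using hasDerivAt_pow 2 ν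
      exact ((h2.const_mul a).add ((hasDerivAt_id ν).const_mul b)).add_const c
    have e1 : a * (2 * ν) + b * 1 = 2 * a * ν + b := by ring
    rw [e1] at h1
    exact h1.hasDerivWithinAt
  have h := lintegral_image_eq_lintegral_abs_deriv_mul hs hd hinj (fun _ => 1)
  simp only [mul_one, lintegral_const, Measure.restrict_apply MeasurableSet.univ, univ_inter, one_mul] at h
  rw [← h]
  calc volume ((fun ν : ℝ => a * ν ^ 2 + b * ν + c) '' s) ≤ volume (Icc (-e) e) := by
        apply measure_mono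
        rintro _ ⟨ν, hν, rfl⟩
        exact abs_le.mp (hse ν hν)
    _ = ENNReal.ofReal (2 * e) := by
        rw [Real.volume_Icc]
        congr 1
        ring

/-- **LEAF L-252-SLV-QC.**   `h ν = a ν² + b ν + c`.
PLAN.  `e < 0`: the set is empty.   `a = 0, b = 0`: integrand `0`.   `a = 0, b ≠ 0`: `h` injective, `lintegral_image_eq_lintegral_abs_deriv_mul` (with `g = 1`) gives `∫_S |h'| = vol (h '' S) ≤ vol (Icc (-e) e) = 2e`.
`a ≠ 0`: split `S` at `ν₀ = -b/(2a)` into `S ∩ Iic ν₀`, `S ∩ Ioi ν₀`; `h` is injective (strictly monotone/antitone) on each half line: `2e + 2e`. -/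
theorem slv_quad_coarea (a b c e : ℝ) :
    ∫⁻ ν in {ν : ℝ | |a * ν ^ 2 + b * ν + c| ≤ e}, ENNReal.ofReal |2 * a * ν + b| ≤ ENNReal.ofReal (4 * e) := by
  set S : Set ℝ := {ν : ℝ | |a * ν ^ 2 + b * ν + c| ≤ e} with hS
  have hSm : MeasurableSet S := by
    have hc : Continuous fun ν : ℝ => |a * ν ^ 2 + b * ν + c| := by fun_prop
    exact (isClosed_le hc continuous_const).measurableSet
  have hcd : Continuous fun ν : ℝ => 2 * a * ν + b := by fun_prop
  have hPm : MeasurableSet {ν : ℝ | 0 < 2 * a * ν + b} := (isOpen_lt continuous_const hcd).measurableSet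
  have hNm : MeasurableSet {ν : ℝ | 2 * a * ν + b < 0} := (isOpen_lt hcd continuous_const).measurableSet
  have hfac : ∀ x y : ℝ, (a * x ^ 2 + b * x + c) - (a * y ^ 2 + b * y + c)
      = (x - y) * (((2 * a * x + b) + (2 * a * y + b)) / 2) := by
    intro x y; ring
  have hP := slv_quad_branch a b c e (S ∩ {ν : ℝ | 0 < 2 * a * ν + b}) (hSm.inter hPm) (by
    intro x hx y hy hxy
    have h1 : (0 : ℝ) < 2 * a * x + b := hx.2
    have h2 : (0 : ℝ) < 2 * a * y + b := hy.2
    have h3 := hfac x y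
    simp only at hxy
    rw [hxy, sub_self] at h3
    have h4 : ((2 * a * x + b) + (2 * a * y + b)) / 2 ≠ 0 := by positivity
    rcases mul_eq_zero.mp h3.symm with h5 | h5
    · linarith
    · exact absurd h5 h4) (fun ν hν => hν.1)
  have hN := slv_quad_branch a b c e (S ∩ {ν : ℝ | 2 * a * ν + b < 0}) (hSm.inter hNm) (by
    intro x hx y hy hxy
    have h1 : 2 * a * x + b < 0 := hx.2
    have h2 : 2 * a * y + b < 0 := hy.2
    have h3 := hfac x y
    simp only at hxy
    rw [hxy, sub_self] at h3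
    have h4 : ((2 * a * x + b) + (2 * a * y + b)) / 2 ≠ 0 := by
      have : ((2 * a * x + b) + (2 * a * y + b)) / 2 < 0 := by linarith
      exact this.ne
    rcases mul_eq_zero.mp h3.symm with h5 | h5
    · linarith
    · exact absurd h5 h4) (fun ν hν => hν.1)
  have hZ : ∫⁻ ν in S ∩ {ν : ℝ | 2 * a * ν + b = 0}, ENNReal.ofReal |2 * a * ν + b| = 0 := by
    have hZm : MeasurableSet (S ∩ {ν : ℝ | 2 * a * ν + b = 0}) :=
      hSm.inter (isClosed_eq hcd continuous_const).measurableSet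
    rw [setLIntegral_congr_fun hZm (g := fun _ => 0) (by
      intro ν hν
      have : 2 * a * ν + b = 0 := hν.2
      simp [this])]
    simp
  have hcov : S ⊆ (S ∩ {ν : ℝ | 0 < 2 * a * ν + b}) ∪ (S ∩ {ν : ℝ | 2 * a * ν + b < 0}) ∪ (S ∩ {ν : ℝ | 2 * a * ν + b = 0}) := by
    intro ν hν
    rcases lt_trichotomy (2 * a * ν + b) 0 with h | h | h
    · exact Or.inl (Or.inr ⟨hν, h⟩)
    · exact Or.inr ⟨hν, h⟩
    · exact Or.inl (Or.inl ⟨hν, h⟩)
  calc ∫⁻ ν in S, ENNReal.ofReal |2 * a * ν + b|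
      ≤ ∫⁻ ν in (S ∩ {ν : ℝ | 0 < 2 * a * ν + b}) ∪ (S ∩ {ν : ℝ | 2 * a * ν + b < 0}) ∪ (S ∩ {ν : ℝ | 2 * a * ν + b = 0}),
          ENNReal.ofReal |2 * a * ν + b| := lintegral_mono_set hcov
    _ ≤ (ENNReal.ofReal (2 * e) + ENNReal.ofReal (2 * e)) + 0 := by
        refine (lintegral_union_le _ _ _).trans (add_le_add ((lintegral_union_le _ _ _).trans (add_le_add hP hN)) hZ.le)
    _ ≤ ENNReal.ofReal (4 * e) := by
        rw [add_zero]
        rcases le_total 0 e with he | he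
        · rw [← ENNReal.ofReal_add (by linarith) (by linarith)]
          apply le_of_eq
          congr 1
          ring
        · rw [ENNReal.ofReal_of_nonpos (by linarith : 2 * e ≤ 0)]
          simp

/-- **LEAF L-252-SLV-QS.**   Markov (`mul_meas_ge_le_lintegral` / `setLIntegral_mono`) from `slv_quad_coarea`: on the set `ofReal g ≤ ofReal |h'|`. -/
theorem slv_quad_sublevel (a b c e g : ℝ) (hg : 0 < g) :
    volume {ν : ℝ | |a * ν ^ 2 + b * ν + c| ≤ e ∧ g ≤ |2 * a * ν + b|} ≤ ENNReal.ofReal (4 * e / g) := by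
  set T : Set ℝ := {ν : ℝ | |a * ν ^ 2 + b * ν + c| ≤ e ∧ g ≤ |2 * a * ν + b|} with hT
  have hTm : MeasurableSet T := by
    have hc : Continuous fun ν : ℝ => |a * ν ^ 2 + b * ν + c| := by fun_prop
    have hcd : Continuous fun ν : ℝ => |2 * a * ν + b| := by fun_prop
    exact (isClosed_le hc continuous_const).measurableSet.inter (isClosed_le continuous_const hcd).measurableSet
  have h1 : volume T * ENNReal.ofReal g ≤ ENNReal.ofReal (4 * e) := by
    calc volume T * ENNReal.ofReal g = ∫⁻ _ν in T, ENNReal.ofReal g := by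
          rw [setLIntegral_const, mul_comm]
      _ ≤ ∫⁻ ν in T, ENNReal.ofReal |2 * a * ν + b| :=
          setLIntegral_mono' hTm fun ν hν => ENNReal.ofReal_le_ofReal hν.2
      _ ≤ ∫⁻ ν in {ν : ℝ | |a * ν ^ 2 + b * ν + c| ≤ e}, ENNReal.ofReal |2 * a * ν + b| :=
          lintegral_mono_set fun ν hν => hν.1
      _ ≤ ENNReal.ofReal (4 * e) := slv_quad_coarea a b c e
  rw [ENNReal.ofReal_div_of_pos hg, ENNReal.le_div_iff_mul_le (Or.inl (by simpa using hg)) (Or.inl ENNReal.ofReal_ne_top)]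
  exact h1

/-- coordinates on `ℝ × ℝ × ℝ` -/
noncomputable def slvE3 : (ℝ × ℝ × ℝ) ≃ₗ[ℝ] (Fin 3 → ℝ) where
  toFun p := ![p.1, p.2.1, p.2.2]
  invFun v := (v 0, v 1, v 2)
  map_add' p q := by
    ext i
    fin_cases i <;> simp
  map_smul' r p := by
    ext i
    fin_cases i <;> simp
  left_inv p := by simp
  right_inv v := by
    ext i
    fin_cases i <;> simp

/-- **LEAF L-252-SLV-DET.**   `A (x, y) = (a x + ℓ y, y)`, `a = L (1, 0)`, `ℓ y = L (0, y)`.   `A = B ∘ C`, `C = prodMap (a • id) id` (`LinearMap.det_prodMap`, `LinearMap.det_smul`, `det id = 1`), `B (x, y) = (x + ℓ y, y)`.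
`det B = 1`: `B_ℓ ∘ B_ℓ = B_{2ℓ} = E ∘ B_ℓ ∘ E⁻¹` with `E = prodMap (2 • id) id` (`LinearMap.det_conj`), so `(det B)² = det B`; `B_ℓ ∘ B_{-ℓ} = id` gives `det B ≠ 0`.   (Or any other way, e.g. a basis and `Matrix.det_fromBlocks_zero₂₁`.) -/
theorem slv_det_prod_snd (L : ℝ × ℝ × ℝ →L[ℝ] ℝ) :
    (L.prod (ContinuousLinearMap.snd ℝ ℝ (ℝ × ℝ))).det = L (1, 0, 0) := by
  rw [ContinuousLinearMap.det, ← LinearMap.det_toMatrix (Module.Basis.ofEquivFun slvE3), Matrix.det_fin_three]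
  simp [LinearMap.toMatrix_apply, slvE3]

/-- **LEAF L-252-SLV-GI.**   `addHaar_image_le_lintegral_abs_det_fderiv volume hS` for `Φ p = (f p, p.2)`, `Φ' p = (f' p).prod (snd)` (`HasFDerivAt.prodMk`, `hasFDerivAt_snd`, `.hasFDerivWithinAt`), `slv_det_prod_snd`. -/
theorem slv_graph_image (S : Set (ℝ × ℝ × ℝ)) (hS : MeasurableSet S) (f : ℝ × ℝ × ℝ → ℝ)
    (f' : ℝ × ℝ × ℝ → (ℝ × ℝ × ℝ →L[ℝ] ℝ)) (hf : ∀ p ∈ S, HasFDerivAt f (f' p) p) :
    volume ((fun p : ℝ × ℝ × ℝ => (f p, p.2)) '' S) ≤ ∫⁻ p in S, ENNReal.ofReal |f' p (1, 0, 0)| := by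
  have : (volume : Measure (ℝ × ℝ × ℝ)).IsAddHaarMeasure :=
    (inferInstance : ((volume : Measure ℝ).prod (volume : Measure (ℝ × ℝ))).IsAddHaarMeasure)
  have h := addHaar_image_le_lintegral_abs_det_fderiv (volume : Measure (ℝ × ℝ × ℝ)) hS
    (f := fun p : ℝ × ℝ × ℝ => (f p, p.2)) (f' := fun p => (f' p).prod (ContinuousLinearMap.snd ℝ ℝ (ℝ × ℝ)))
    (fun p hp => ((hf p hp).prodMk hasFDerivAt_snd).hasFDerivWithinAt)
  simpa only [slv_det_prod_snd] using h

/-- **LEAF L-252-SLV-ENG: the engine.**   Points `p = (x, ν, μ)`.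
PLAN.  `slv_graph_image`;  on `S` the integrand is `≤ F p := ofReal (cJ |2 a ν + b|)`; `S ⊆ T := {|x| ≤ K} ∩ {|μ| ≤ L} ∩ {|a ν² + b ν + c| ≤ e}` (measurable);  `∫_S ≤ ∫ 1_T F`;   `volume = volume.prod (volume.prod volume)`,
`lintegral_prod` twice and `lintegral_lintegral_swap` (everything is measurable) to integrate in `ν` first: for fixed `(x, μ)`, `∫ 1[..] ofReal (cJ |2aν+b|) dν ≤ ofReal cJ * ofReal (4e)` (`slv_quad_coarea`, `ENNReal.ofReal_mul`);
then `vol (Icc (-K) K) = 2K`, `vol (Icc (-L) L) = 2L`. -/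
theorem slv_coarea_box (S : Set (ℝ × ℝ × ℝ)) (hS : MeasurableSet S) (f : ℝ × ℝ × ℝ → ℝ)
    (f' : ℝ × ℝ × ℝ → (ℝ × ℝ × ℝ →L[ℝ] ℝ)) (hf : ∀ p ∈ S, HasFDerivAt f (f' p) p)
    (a b c : ℝ × ℝ → ℝ) (ha : Measurable a) (hb : Measurable b) (hc : Measurable c)
    (K L e cJ : ℝ) (hK : 0 ≤ K) (hL : 0 ≤ L) (he : 0 ≤ e) (hcJ : 0 ≤ cJ)
    (hbox : ∀ p ∈ S, |p.1| ≤ K ∧ |p.2.2| ≤ L)
    (hpsi : ∀ p ∈ S, |a (p.1, p.2.2) * p.2.1 ^ 2 + b (p.1, p.2.2) * p.2.1 + c (p.1, p.2.2)| ≤ e)
    (hJ : ∀ p ∈ S, |f' p (1, 0, 0)| ≤ cJ * |2 * a (p.1, p.2.2) * p.2.1 + b (p.1, p.2.2)|) :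
    volume ((fun p : ℝ × ℝ × ℝ => (f p, p.2)) '' S) ≤ ENNReal.ofReal (cJ * (2 * K) * (2 * L) * (4 * e)) := by
  set F : ℝ × ℝ × ℝ → ENNReal := fun p => ENNReal.ofReal (cJ * |2 * a (p.1, p.2.2) * p.2.1 + b (p.1, p.2.2)|) with hF
  set T : Set (ℝ × ℝ × ℝ) := {p | |p.1| ≤ K ∧ |p.2.2| ≤ L ∧
    |a (p.1, p.2.2) * p.2.1 ^ 2 + b (p.1, p.2.2) * p.2.1 + c (p.1, p.2.2)| ≤ e} with hT
  have hpr : Measurable fun p : ℝ × ℝ × ℝ => (p.1, p.2.2) := by fun_prop
  have ha' : Measurable fun p : ℝ × ℝ × ℝ => a (p.1, p.2.2) := ha.comp hpr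
  have hb' : Measurable fun p : ℝ × ℝ × ℝ => b (p.1, p.2.2) := hb.comp hpr
  have hc' : Measurable fun p : ℝ × ℝ × ℝ => c (p.1, p.2.2) := hc.comp hpr
  have hν : Measurable fun p : ℝ × ℝ × ℝ => p.2.1 := by fun_prop
  have hFm : Measurable F := by
    apply Measurable.ennreal_ofReal
    exact measurable_const.mul ((((measurable_const.mul ha').mul hν).add hb').abs)
  have hTm : MeasurableSet T := by
    have m1 : MeasurableSet {p : ℝ × ℝ × ℝ | |p.1| ≤ K} := measurableSet_le (by fun_prop) measurable_const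
    have m2 : MeasurableSet {p : ℝ × ℝ × ℝ | |p.2.2| ≤ L} := measurableSet_le (by fun_prop) measurable_const
    have m3 : MeasurableSet {p : ℝ × ℝ × ℝ |
        |a (p.1, p.2.2) * p.2.1 ^ 2 + b (p.1, p.2.2) * p.2.1 + c (p.1, p.2.2)| ≤ e} :=
      measurableSet_le ((((ha'.mul (hν.pow_const 2)).add (hb'.mul hν)).add hc').abs) measurable_const
    exact m1.inter (m2.inter m3)
  have hST : S ⊆ T := fun p hp => ⟨(hbox p hp).1, (hbox p hp).2, hpsi p hp⟩
  set C : ENNReal := ENNReal.ofReal cJ * ENNReal.ofReal (4 * e) with hC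
  have hGm : Measurable (T.indicator F) := hFm.indicator hTm
  -- the inner integral
  have hin : ∀ x μ : ℝ, ∫⁻ ν, T.indicator F (x, ν, μ) ≤
      (Icc (-K) K).indicator (fun _ => (Icc (-L) L).indicator (fun _ => C) μ) x := by
    intro x μ
    by_cases hx : |x| ≤ K
    · by_cases hμ : |μ| ≤ L
      · rw [indicator_of_mem (show x ∈ Icc (-K) K from abs_le.mp hx), indicator_of_mem (show μ ∈ Icc (-L) L from abs_le.mp hμ)]
        have hSm : MeasurableSet {ν : ℝ | |a (x, μ) * ν ^ 2 + b (x, μ) * ν + c (x, μ)| ≤ e} := by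
          have hcc : Continuous fun ν : ℝ => |a (x, μ) * ν ^ 2 + b (x, μ) * ν + c (x, μ)| := by fun_prop
          exact (isClosed_le hcc continuous_const).measurableSet
        have e1 : (fun ν => T.indicator F (x, ν, μ)) = {ν : ℝ | |a (x, μ) * ν ^ 2 + b (x, μ) * ν + c (x, μ)| ≤ e}.indicator
            (fun ν => ENNReal.ofReal cJ * ENNReal.ofReal |2 * a (x, μ) * ν + b (x, μ)|) := by
          funext ν
          by_cases hν' : |a (x, μ) * ν ^ 2 + b (x, μ) * ν + c (x, μ)| ≤ e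
          · rw [indicator_of_mem (show (x, ν, μ) ∈ T from ⟨hx, hμ, hν'⟩),
              indicator_of_mem (s := {ν : ℝ | |a (x, μ) * ν ^ 2 + b (x, μ) * ν + c (x, μ)| ≤ e}) hν']
            simp only [hF]
            rw [ENNReal.ofReal_mul hcJ]
          · rw [indicator_of_notMem (show (x, ν, μ) ∉ T from fun h => hν' h.2.2),
              indicator_of_notMem (s := {ν : ℝ | |a (x, μ) * ν ^ 2 + b (x, μ) * ν + c (x, μ)| ≤ e}) hν']
        rw [e1, lintegral_indicator hSm, lintegral_const_mul' _ _ ENNReal.ofReal_ne_top, hC]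
        gcongr
        exact slv_quad_coarea _ _ _ _
      · have e1 : (fun ν => T.indicator F (x, ν, μ)) = fun _ => 0 := by
          funext ν
          exact indicator_of_notMem (fun h => hμ h.2.1) _
        rw [e1]
        simp
    · have e1 : (fun ν => T.indicator F (x, ν, μ)) = fun _ => 0 := by
        funext ν
        exact indicator_of_notMem (fun h => hx h.1) _
      rw [e1]
      simp
  calc volume ((fun p : ℝ × ℝ × ℝ => (f p, p.2)) '' S) ≤ ∫⁻ p in S, ENNReal.ofReal |f' p (1, 0, 0)| :=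
        slv_graph_image S hS f f' hf
    _ ≤ ∫⁻ p in S, F p := setLIntegral_mono' hS fun p hp => ENNReal.ofReal_le_ofReal (hJ p hp)
    _ ≤ ∫⁻ p in T, F p := lintegral_mono_set hST
    _ = ∫⁻ p, T.indicator F p := (lintegral_indicator hTm F).symm
    _ = ∫⁻ x, ∫⁻ q : ℝ × ℝ, T.indicator F (x, q) := by
        rw [Measure.volume_eq_prod, lintegral_prod _ hGm.aemeasurable]
    _ = ∫⁻ x, ∫⁻ μ, ∫⁻ ν, T.indicator F (x, ν, μ) := by
        refine lintegral_congr fun x => ?_
        rw [Measure.volume_eq_prod, lintegral_prod_symm (fun q : ℝ × ℝ => T.indicator F (x, q))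
          (hGm.comp (by fun_prop : Measurable fun q : ℝ × ℝ => (x, q))).aemeasurable]
    _ ≤ ∫⁻ x, ∫⁻ μ, (Icc (-K) K).indicator (fun _ => (Icc (-L) L).indicator (fun _ => C) μ) x :=
        lintegral_mono fun x => lintegral_mono fun μ => hin x μ
    _ = ∫⁻ x, (Icc (-K) K).indicator (fun _ => C * ENNReal.ofReal (2 * L)) x := by
        refine lintegral_congr fun x => ?_
        by_cases hx : x ∈ Icc (-K) K
        · simp only [indicator_of_mem hx]
          rw [lintegral_indicator_const measurableSet_Icc, Real.volume_Icc]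
          congr 2
          ring
        · simp only [indicator_of_notMem hx]
          simp
    _ = C * ENNReal.ofReal (2 * L) * ENNReal.ofReal (2 * K) := by
        rw [lintegral_indicator_const measurableSet_Icc, Real.volume_Icc]
        congr 2
        ring
    _ = ENNReal.ofReal (cJ * (2 * K) * (2 * L) * (4 * e)) := by
        rw [hC, ← ENNReal.ofReal_mul hcJ, ← ENNReal.ofReal_mul (by positivity), ← ENNReal.ofReal_mul (by positivity)]
        congr 1
        ring

/-- **LEAF L-252-SLV-SWAP.**   `(ρ, a, b) ↦ (ρ, b, a)` preserves the volume of every set (`MeasureTheory.measurePreserving_swap`/`Measure.prod_swap`, `MeasurePreserving.prod`/`.skew_product`;  it is a measurable equivalence, so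
`MeasurePreserving.measure_preimage_equiv`;  or `addHaar_image_linearMap` with `|det| = 1`). -/
theorem slv_vol_swap (T : Set (ℝ × ℝ × ℝ)) :
    volume ((fun p : ℝ × ℝ × ℝ => (p.1, p.2.2, p.2.1)) '' T) = volume T := by
  have hmp : MeasurePreserving (MeasurableEquiv.prodCongr (MeasurableEquiv.refl ℝ) (MeasurableEquiv.prodComm (α := ℝ) (β := ℝ)))
      (volume : Measure (ℝ × ℝ × ℝ)) volume :=
    (MeasurePreserving.id (volume : Measure ℝ)).prod (Measure.measurePreserving_swap (μ := (volume : Measure ℝ)) (ν := (volume : Measure ℝ)))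
  have himg : (fun p : ℝ × ℝ × ℝ => (p.1, p.2.2, p.2.1)) '' T
      = (MeasurableEquiv.prodCongr (MeasurableEquiv.refl ℝ) (MeasurableEquiv.prodComm (α := ℝ) (β := ℝ))) ⁻¹' T := by
    ext p
    constructor
    · rintro ⟨q, hq, rfl⟩
      exact hq
    · intro hp
      exact ⟨(p.1, p.2.2, p.2.1), hp, rfl⟩
  rw [himg]
  exact hmp.measure_preimage_equiv T

/-- **LEAF L-252-SLV-NEG.**   `p ↦ -p` preserves the volume of every set (`Measure.measure_neg`/`measure_preimage_neg`, `Set.image_neg_eq_neg`). -/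
theorem slv_vol_neg (T : Set (ℝ × ℝ × ℝ)) :
    volume ((fun p : ℝ × ℝ × ℝ => (-p.1, -p.2.1, -p.2.2)) '' T) = volume T := by
  have : (fun p : ℝ × ℝ × ℝ => (-p.1, -p.2.1, -p.2.2)) = fun p => -p := by
    funext p
    rfl
  have hH : (volume : Measure (ℝ × ℝ × ℝ)).IsAddHaarMeasure :=
    (inferInstance : ((volume : Measure ℝ).prod (volume : Measure (ℝ × ℝ))).IsAddHaarMeasure)
  rw [this, Set.image_neg_eq_neg, Measure.measure_neg]

end Claimed.Agent.R252
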